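import Vale.Agent.P144Z.H2.Main
import Vale.Agent.P144Z.I1.KW
import Vale.Agent.P144Z.G.Basic

/-!
Sectors, strings and the Gibbs measure of the torus in terms of contours.
-/

namespace Vale.Agent.P144Z

open Finset Matrix

set_option linter.unusedVariables false
set_option linter.unusedSectionVars false

section H3
variable {M : ℕ} [NeZero M]

theorem sec_sign (θ : Bool × Bool) : IsSign (sec M θ) := by
  intro e
  unfold sec
  split_ifs <;> simp

theorem H3.sq {α : Type} {A : α → ℝ} (h : IsSign A) (e : α) : A e * A e = 1 := by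
  rcases h e with h | h <;> rw [h] <;> norm_num

theorem H3.sign_mul {α : Type} {A B : α → ℝ} (h : IsSign A) (h' : IsSign B) : IsSign (A * B) := by
  intro e
  rw [Pi.mul_apply]
  rcases h e with h | h <;> rcases h' e with h' | h' <;> rw [h, h'] <;> norm_num

theorem H3.sign_prod {α ι : Type} (s : Finset ι) {A : ι → α → ℝ} (h : ∀ i, IsSign (A i)) :
    IsSign (∏ i ∈ s, A i) :=
  Finset.prod_induction _ IsSign (fun _ _ => H3.sign_mul) (fun _ => Or.inl rfl) fun i _ => h i

theorem sec_flat (θ : Bool × Bool) (f : Tor M) : flux (sec M θ) f = 1 := by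
  have e0 : sec M θ (f + uv M 1, 0) = sec M θ (f, 0) := by simp [sec, uv]
  have e1 : sec M θ (f + uv M 0, 1) = sec M θ (f, 1) := by simp [sec, uv]
  unfold flux
  rw [e0, e1]
  linear_combination sec M θ (f, 1) * sec M θ (f, 1) * H3.sq (sec_sign θ) (f, 0) +
    H3.sq (sec_sign θ) (f, 1)

theorem H3.prod_seam (a c : ZMod M) :
    ∏ m ∈ range M, (if a + (m : ZMod M) = c then (-1 : ℝ) else 1) = -1 := by
  rw [← I1.prod_zmod fun j => if a + j = c then (-1 : ℝ) else 1, Finset.prod_eq_single (c - a)]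
  · simp
  · intro j _ hj
    rw [if_neg]
    intro h
    exact hj (by rw [← h, add_sub_cancel_left])
  · intro h
    exact absurd (mem_univ _) h

theorem sec_anti {θ : Bool × Bool} (hθ : θ ≠ (false, false)) : ∃ i, Anti (sec M θ) i := by
  cases h1 : θ.1
  · have h2 : θ.2 = true := by
      cases h2 : θ.2
      · exact absurd (Prod.ext h1 h2) hθ
      · rfl
    refine ⟨1, fun x => ?_⟩
    rw [← H3.prod_seam x.2 ((M / 2 : ℕ) : ZMod M)]
    exact Finset.prod_congr rfl fun m _ => by simp [sec, uv, h2]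
  · refine ⟨0, fun x => ?_⟩
    rw [← H3.prod_seam x.1 ((M / 2 : ℕ) : ZMod M)]
    exact Finset.prod_congr rfl fun m _ => by simp [sec, uv, h1]

theorem sec_ff : sec M (false, false) = 1 := by
  funext e
  simp [sec]

/-- The weight of a sector only depends on the homology class. -/
theorem wt_sec (θ c : Bool × Bool) (x : ℝ) (σ : Tor M → Bool) :
    wt (sec M θ) x (fun e => xor (dom σ e) (cyc c e)) =
      sgn (θ.1 && c.1) * sgn (θ.2 && c.2) * wt 1 x (fun e => xor (dom σ e) (cyc c e)) := by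
  rw [← I1.wt_sec_dom_cyc θ σ c, ← I1.wt_mul, mul_one]

/-- The sum of the four sectors is the sum over spin configurations. -/
theorem sum_sec (hM : 4 ≤ M) (q : Par) (Φ : (Tor M × Fin 2 → Bool) → ℝ) :
    ∑ θ, Zw q (sec M θ) Φ =
      2 * ∑ σ : Tor M → Bool, wt 1 q.x (dom σ) * Real.exp (uint q (dom σ)) * Φ (dom σ) := by
  have h := I1.sum_Zw q 1 Φ
  simp only [mul_one] at h
  exact h

/-- The free sectors are nonnegative. -/
theorem free_sec (hM : 4 ≤ M) : (∀ θ, 0 ≤ Zw par0 (sec M θ) 1) ∧ 0 < Zw par0 (sec M AA) 1 := by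
  have p1 := I1.Zc_pos (M := M) (true, false)
  have p2 := I1.Zc_pos (M := M) (false, true)
  have p3 := I1.Zc_pos (M := M) (true, true)
  refine ⟨?_, (add_pos p1 p2).trans_eq I1.Zw_tt.symm⟩
  rintro ⟨_ | _, _ | _⟩
  · exact I1.Zw_ff.ge
  · exact (add_pos p2 p3).le.trans_eq I1.Zw_ft.symm
  · exact (add_pos p1 p3).le.trans_eq I1.Zw_tf.symm
  · exact (add_pos p1 p2).le.trans_eq I1.Zw_tt.symm

theorem strG_sign (a b : ℤ × ℤ) : IsSign (strG M a b) := by
  have key : ∀ (s : Finset ℤ) (p : ℤ → Prop) [DecidablePred p],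
      ∏ i ∈ s, (if p i then (-1 : ℝ) else 1) = 1 ∨ ∏ i ∈ s, (if p i then (-1 : ℝ) else 1) = -1 := by
    intro s p _
    have h := I1.prod_sgn_cases s fun i => decide (p i)
    simpa only [sgn, decide_eq_true_eq] using h
  intro e
  unfold strG
  rcases key _ fun i => e = (prj M ((i, a.2) + uz 0), 1) with h | h <;>
    rcases key _ fun i => e = (prj M ((b.1, i) + uz 1), 0) with h' | h' <;>
    rw [h, h'] <;> norm_num

theorem spinG_sign {n : ℕ} (a : ℤ × ℤ) (x : Fin n → ℤ × ℤ) : IsSign (spinG M a x) :=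
  H3.sign_prod _ fun i => strG_sign a (x i)

theorem H3.obs_eq (O : ((ℤ × ℤ) × Fin 2 → Bool) → ℝ) (n : Tor M × Fin 2 → Bool) :
    obs M O n = O (I1.see 0 n) := by
  unfold obs I1.see
  simp only [zero_add]

/-- Strings are observables. -/
theorem Zw_spinG (q : Par) (A : Gauge M) {n : ℕ} (a : ℤ × ℤ) (x : Fin n → ℤ × ℤ)
    (Φ : (Tor M × Fin 2 → Bool) → ℝ) :
    Zw q (A * spinG M a x) Φ = Zw q A (fun c => Φ c * obs M (fun c' => ∏ i, pHV c' a (x i)) c) := by
  refine Finset.sum_congr rfl fun c _ => ?_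
  rw [mul_comm A, I1.wt_mul, spinG, I1.wt_prod]
  simp only [I1.wt_strG, H3.obs_eq]
  ring

/-- The product of the bonds along a path is the product of the spins at its ends. -/
theorem pHV_dom (s : Tor M → Bool) (a b : ℤ × ℤ) :
    obs M (fun c => pHV c a b) (dom s) = P144.sp (per M s a) * P144.sp (per M s b) := by
  rw [H3.obs_eq, I1.pHV_dom, zero_add, zero_add]
  rfl

theorem sgn_dom (s : Tor M → Bool) (u : ℤ × ℤ) (j : Fin 2) :
    sgn (dom s (prj M (dualE u j).1, (dualE u j).2)) =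
      P144.sp (per M s u) * P144.sp (per M s (u + P144.dir j)) := I1.sgn_dom_dualE s u j

theorem H3.wt_tog {A : Gauge M} (hA : IsSign A) (e : Tor M × Fin 2) (n : Tor M × Fin 2 → Bool) :
    wt A 1 (I1.tog e n) = A e * wt A 1 n := by
  unfold wt
  rw [← Finset.mul_prod_erase univ _ (mem_univ e), ← Finset.mul_prod_erase univ
    (fun e => if n e then 1 * A e else 1) (mem_univ e), ← mul_assoc]
  refine congrArg₂ (· * ·) ?_ (Finset.prod_congr rfl fun e' he' => ?_)
  · cases h : n e <;> simp [I1.tog, h, H3.sq hA]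
  · simp [I1.tog, ne_of_mem_erase he']

theorem H3.flux_eq {A : Gauge M} (hA : IsSign A) (f : Tor M) :
    flux A f = wt A 1 (dom fun x => !decide (x = f)) := by
  have h := I1.dom_tog f (fun _ => false) fun _ => false
  have e : (fun x => decide (x = f)) = I1.tog f fun _ => false := by
    funext x
    simp [I1.tog]
  simp only [Bool.xor_false] at h
  rw [I1.dom_not, e]
  refine Eq.trans ?_ (congrArg (wt A 1) h).symm
  rw [H3.wt_tog hA, H3.wt_tog hA, H3.wt_tog hA, H3.wt_tog hA]
  have e2 : wt A 1 (fun e => dom (fun _ => false) e) = 1 := by simp [wt, dom]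
  rw [e2]
  unfold flux
  ring

theorem H3.flux_mul (A B : Gauge M) (f : Tor M) : flux (A * B) f = flux A f * flux B f := by
  unfold flux
  simp only [Pi.mul_apply]
  ring

/-- The fluxes of the strings. -/
theorem flux_spinG {n : ℕ} (hn : Even n) (θ : Bool × Bool) (a : ℤ × ℤ) (x : Fin n → ℤ × ℤ)
    (hx : Function.Injective fun i => prj M (x i)) (f : Tor M) :
    flux (sec M θ * spinG M a x) f = -1 ↔ ∃ i, f = prj M (x i) := by
  rw [H3.flux_mul, sec_flat, one_mul, H3.flux_eq (spinG_sign a x), I1.wt_spinG_dom_even hn]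
  constructor
  · intro h
    by_contra h'
    rw [Finset.prod_eq_one fun i _ => ?_] at h
    · norm_num at h
    · have : prj M (x i) ≠ f := fun e => h' ⟨i, e.symm⟩
      simp [P144.sp, this]
  · rintro ⟨i, rfl⟩
    rw [Finset.prod_eq_single i]
    · simp [P144.sp]
    · intro j _ hj
      have : prj M (x j) ≠ prj M (x i) := fun e => hj (hx e)
      simp [P144.sp, this]
    · intro h
      exact absurd (mem_univ _) h

theorem H3.tdist_prj {u v : ℤ × ℤ} {R : ℕ} (hu : zd u 0 ≤ R) (hv : zd v 0 ≤ R) (hM : 4 * R < M) :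
    tdist (prj M u) (prj M v) = zd u v := by
  unfold zd at hu hv
  simp only [Prod.fst_zero, Prod.snd_zero, sub_zero, max_le_iff] at hu hv
  rw [G.tdist_def, ← G.prj_sub, lft_prj]
  · rfl
  · rw [Prod.fst_sub, Int.abs_eq_natAbs]
    omega
  · rw [Prod.snd_sub, Int.abs_eq_natAbs]
    omega

theorem H3.tdist_prj_zero (u : ℤ × ℤ) : tdist (prj M u) 0 ≤ zd u 0 := by
  rw [← G.prj_zero]
  exact tdist_prj_le u 0

theorem H3.strG_out {b : ℤ × ℤ} {R : ℕ} (hb : zd b 0 ≤ R) {e : Tor M × Fin 2}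
    (he : R + 1 < tdist e.1 0) : strG M 0 b e = 1 := by
  unfold zd at hb
  simp only [Prod.fst_zero, Prod.snd_zero, sub_zero, max_le_iff] at hb
  unfold strG
  rw [Finset.prod_eq_one, Finset.prod_eq_one, one_mul]
  · intro i hi
    rw [if_neg]
    rintro rfl
    have h := he.trans_le (H3.tdist_prj_zero (M := M) ((b.1, i) + uz 1))
    simp only [zd, uz, Prod.snd_zero, mem_Ico] at h hi
    simp at h
    omega
  · intro i hi
    rw [if_neg]
    rintro rfl
    have h := he.trans_le (H3.tdist_prj_zero (M := M) ((i, (0 : ℤ × ℤ).2) + uz 0))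
    simp only [zd, uz, Prod.fst_zero, mem_Ico] at h hi
    simp at h
    omega

theorem H3.enSrc_ok (y : Tor M) (i : Fin 2) : (enSrc y i).Ok where
  zero := mem_insert_self _ _
  dep := fun n n' h => congrArg sgn (h ((0, 0), i) (mem_insert_self _ _)
    (mem_insert_of_mem (mem_singleton.2 (zero_add _))))
  bd := fun n => by
    show |sgn _| ≤ 1
    rcases I1.sgn_cases (n ((0, 0), i)) with h | h <;> rw [h] <;> norm_num
  en := fun _ => ⟨rfl, rfl⟩

/-- The geometry of the main theorem. -/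
theorem geoM_spec {n m : ℕ} (hn : Even n) {x : Fin n → ℤ × ℤ} {y : Fin m → ℤ × ℤ}
    (d : Fin m → Fin 2) (J : ℕ) {Λ r : ℕ} (h : Pos x y Λ r) (hM : 8 * (Λ * r + 1) ≤ M) :
    (geoM M x y d J).Ok ∧ (geoM M x y d J).Sep r ∧
      Cluster (geoM M x y d J).A (sec M AA) 0 (Λ * r + 1) r ∧
      (∀ k, tdist ((geoM M x y d J).src k).y 0 ≤ Λ * r) ∧
      ∀ f, flux (geoM M x y d J).A f = -1 ↔ ∃ i, f = prj M (x i) := by
  have hM' : 4 * (Λ * r) < M := by omega
  have hs : IsSign (sec M AA * spinG M 0 x) := H3.sign_mul (sec_sign _) (spinG_sign _ _)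
  have hxx : ∀ i j, i ≠ j → r < tdist (prj M (x i)) (prj M (x j)) := fun i j hij => by
    rw [H3.tdist_prj (h.xle i) (h.xle j) hM']
    exact h.xx i j hij
  have hinj : Function.Injective fun i => prj M (x i) := by
    intro i j e
    by_contra hij
    have h1 := hxx i j hij
    rw [show prj M (x i) = prj M (x j) from e, tdist_self] at h1
    omega
  have hfl := flux_spinG hn AA 0 x hinj
  have hff : ∀ f f', flux (sec M AA * spinG M 0 x) f = -1 → flux (sec M AA * spinG M 0 x) f' = -1 →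
      f ≠ f' → r < tdist f f' := by
    intro f f' hf hf' hne
    obtain ⟨i, rfl⟩ := (hfl f).1 hf
    obtain ⟨j, rfl⟩ := (hfl f').1 hf'
    exact hxx i j fun e => hne (by rw [e])
  refine ⟨⟨hs, fun k => H3.enSrc_ok _ _⟩, ⟨hff, fun f k hf => ?_, fun k k' hk => ?_⟩,
    ⟨hs, sec_sign _, sec_flat _, fun e he => ?_, fun f hf => ?_, hff⟩,
    fun k => (H3.tdist_prj_zero _).trans (h.yle k), hfl⟩
  · obtain ⟨i, rfl⟩ := (hfl f).1 hf
    exact (h.xy i k).trans_eq (H3.tdist_prj (h.xle i) (h.yle k) hM').symm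
  · exact (h.yy k k' hk).trans_eq (H3.tdist_prj (h.yle k) (h.yle k') hM').symm
  · have e1 : spinG M 0 x e = 1 :=
      (Finset.prod_apply (α := Tor M × Fin 2) e univ fun i => strG M 0 (x i)).trans
        (Finset.prod_eq_one fun i _ => H3.strG_out (h.xle i) he)
    exact (congrArg (sec M AA e * ·) e1).trans (mul_one _)
  · obtain ⟨i, rfl⟩ := (hfl f).1 hf
    exact (H3.tdist_prj_zero _).trans ((h.xle i).trans (Nat.le_succ _))

/-- The Gibbs measure of the torus in terms of contours. -/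
theorem gibbsT_eq {J lam β : ℝ} (q : Par) (hV : P144.IsPotential q.V)
    (hR : ∀ B, q.V B ≠ 0 → (0, 0) ∈ B → B ∈ potSets q.R) (hμ : q.μ = β * lam)
    (hx : q.x = Real.exp (-(2 * β * J))) {M : ℕ} (hM : 4 ≤ M) (F : P144.Config → ℝ)
    (Φ : (Tor (M + 1) × Fin 2 → Bool) → ℝ) (h : ∀ s, F (per (M + 1) s) = Φ (dom s)) :
    gibbsT J lam q.V β M F = (∑ θ, Zw q (sec (M + 1) θ) Φ) / ∑ θ, Zw q (sec (M + 1) θ) 1 := by
  have h1 := I1.gibbsT_eq (J := J) q hV hR hμ (hx.trans (congrArg Real.exp (by ring))) M F 1 Φ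
    fun σ => by rw [I1.wt_one, one_mul, h]
  simp only [mul_one] at h1
  exact h1

theorem H3.energyT_not {J lam : ℝ} {V : Finset P144.Site → ℝ} (hV : P144.IsPotential V) (M : ℕ)
    (σ : P144.Config) : energyT J lam V M (fun x => !σ x) = energyT J lam V M σ := by
  classical
  unfold energyT
  refine congrArg Neg.neg (Finset.sum_congr rfl fun x _ => finsum_congr fun A =>
    finsum_congr fun _ => ?_)
  have e : ∀ y, P144.sp (!σ y) = -1 * P144.sp (σ y) := fun y => by cases σ y <;> simp [P144.sp]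
  simp only [e, Finset.prod_mul_distrib, Finset.prod_const]
  by_cases he : Even A.card
  · rw [he.neg_one_pow, one_mul]
  · have h1 : ¬ P144.IsEdge A := by
      rintro ⟨u, v, huv, rfl⟩
      refine he ?_
      rw [Finset.card_pair]
      · exact even_two
      · rintro rfl
        simp [P144.dsq] at huv
    have h2 : V A = 0 := by
      by_contra h
      exact he (hV.even A h)
    simp [h1, h2]

/-- Odd observables vanish. -/
theorem gibbsT_odd {J lam β : ℝ} {V : Finset P144.Site → ℝ} (hV : P144.IsPotential V) (M : ℕ)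
    (F : P144.Config → ℝ) (hF : ∀ σ, F (fun x => !σ x) = -F σ) : gibbsT J lam V β M F = 0 := by
  unfold gibbsT
  refine div_eq_zero_iff.2 (Or.inl ?_)
  have h : ∑ s : ZMod (M + 1) × ZMod (M + 1) → Bool, F (fun x => !per (M + 1) s x) *
      Real.exp (-β * energyT J lam V (M + 1) fun x => !per (M + 1) s x) = _ :=
    Equiv.sum_comp (Function.Involutive.toPerm
      (fun (s : ZMod (M + 1) × ZMod (M + 1) → Bool) x => !s x) fun s => by simp)
      fun s => F (per (M + 1) s) * Real.exp (-β * energyT J lam V (M + 1) (per (M + 1) s))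
  simp only [hF, H3.energyT_not hV, neg_mul, Finset.sum_neg_distrib] at h
  simp only [neg_mul]
  linarith
end H3

end Vale.Agent.P144Z
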